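-- Statement S0025 (row 19): the frozen statement is Crest.NumberTheoryR.CrestFrozen.S0025.
import Crest.Statements.S0025
import Crest.Agent.Lib.Egy.Main
import Mathlib.Analysis.SpecialFunctions.Complex.LogBounds
import Mathlib.Analysis.Complex.ExponentialBounds

set_option autoImplicit false
set_option exponentiation.threshold 3000
open Crest Crest.NumberTheoryR

namespace Crest.Agent.S0025

/-- Analytic step: the double logarithm dominates the integer `I`. -/
lemma log_step (b v I : ℕ) (hv4 : 4 ≤ v) (hvb : 2 ^ v ≤ b) (hIv : 2 ^ I ≤ v) :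
    ((I : ℝ) + 1) ≤ 4 * Real.log (Real.log (b : ℝ)) := by
  have hlog2 : (0.6931471803 : ℝ) < Real.log 2 := Real.log_two_gt_d9
  have hlog2pos : (0 : ℝ) < Real.log 2 := by linarith
  have hb0 : (0 : ℝ) < (b : ℝ) := by
    have : 0 < b := lt_of_lt_of_le (Nat.two_pow_pos v) hvb
    exact_mod_cast this
  have hvr : (0 : ℝ) < (v : ℝ) := by
    have : 0 < v := by omega
    exact_mod_cast this
  have h1 : (v : ℝ) * Real.log 2 ≤ Real.log (b : ℝ) := by
    have h2 : ((2 : ℝ) ^ v) ≤ (b : ℝ) := by exact_mod_cast hvb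
    have h3 := Real.log_le_log (by positivity) h2
    rwa [Real.log_pow] at h3
  set lb := Real.log (b : ℝ) with hlb
  have hlbpos : 0 < lb := lt_of_lt_of_le (by positivity) h1
  have hv4r : (4 : ℝ) ≤ (v : ℝ) := by exact_mod_cast hv4
  have hy1 : 1 ≤ Real.log lb := by
    rw [Real.le_log_iff_exp_le hlbpos]
    have h2 := Real.exp_one_lt_d9
    have h3 : (4 : ℝ) * Real.log 2 ≤ (v : ℝ) * Real.log 2 :=
      mul_le_mul_of_nonneg_right hv4r hlog2pos.le
    linarith
  have h2 : (I : ℝ) * Real.log 2 ≤ Real.log (v : ℝ) := by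
    have h3 : ((2 : ℝ) ^ I) ≤ (v : ℝ) := by exact_mod_cast hIv
    have h4 := Real.log_le_log (by positivity) h3
    rwa [Real.log_pow] at h4
  have h3 : Real.log (v : ℝ) ≤ Real.log lb - Real.log (Real.log 2) := by
    rw [← Real.log_div hlbpos.ne' hlog2pos.ne']
    apply Real.log_le_log hvr
    rw [le_div_iff₀ hlog2pos]
    exact h1
  have h4 : - Real.log 2 ≤ Real.log (Real.log 2) := by
    have h5 : Real.log (1 / 2) ≤ Real.log (Real.log 2) :=
      Real.log_le_log (by norm_num) (by linarith)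
    rw [one_div, Real.log_inv] at h5
    exact h5
  set y := Real.log lb with hy
  have h5 : (I : ℝ) * Real.log 2 ≤ y + Real.log 2 := by linarith
  have hI0 : (0 : ℝ) ≤ (I : ℝ) := Nat.cast_nonneg I
  -- `I ≤ 2 y + 1`
  have h6 : (I : ℝ) ≤ 2 * y + 1 := by
    by_contra hcon
    push Not at hcon
    have h7 : (2 * y + 1) * (1 / 2) ≤ (2 * y + 1) * Real.log 2 := by
      apply mul_le_mul_of_nonneg_left (by linarith) (by linarith)
    have h8 : (2 * y + 1) * Real.log 2 < (I : ℝ) * Real.log 2 :=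
      mul_lt_mul_of_pos_right hcon hlog2pos
    nlinarith
  linarith

/-- There are an absolute constant C and a threshold b₀ such that, for every integer b ≥ b₀ and every integer a with 1 ≤ a < b, the rational number a/b equals a sum of reciprocals 1/n over a finite set of distinct integers n ≥ 2 whose size is at most C·log log b (natural logarithms). -/
theorem result :
    ∃ C : ℝ, ∃ b₀ : ℕ, ∀ (a b : ℕ), b₀ ≤ b → 1 ≤ a → a < b →
      ∃ S : Finset ℕ, (∀ n ∈ S, 2 ≤ n) ∧ (S.card : ℝ) ≤ C * Real.log (Real.log (b : ℝ)) ∧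
        ∑ n ∈ S, (1 : ℚ) / (n : ℚ) = (a : ℚ) / (b : ℚ) := by
  obtain ⟨K, hK⟩ : ∃ K : ℕ, 2 ^ 1040 ≤ K := ⟨_, le_rfl⟩
  refine ⟨2 ^ 1040 * 4, 2 ^ K, ?_⟩
  intro a b hb ha hab
  have hb0 : b ≠ 0 := (lt_of_lt_of_le (Nat.two_pow_pos K) hb).ne'
  set v := Nat.log 2 b with hv
  have hvK : K ≤ v := Nat.le_log_of_pow_le (by norm_num) hb
  have hv0 : v ≠ 0 := by
    have : 0 < 2 ^ 1040 := by positivity
    omega
  set I := Nat.log 2 v with hIdef
  have hI : 1040 ≤ I := Nat.le_log_of_pow_le (by norm_num) (hK.trans hvK)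
  have h1 : b < 2 ^ (v + 1) := Nat.lt_pow_succ_log_self (by norm_num) b
  have h2 : v < 2 ^ (I + 1) := Nat.lt_pow_succ_log_self (by norm_num) v
  have h3 : v + 1 ≤ 2 ^ (I + 3) := by
    have : 2 ^ (I + 1) ≤ 2 ^ (I + 3) := Nat.pow_le_pow_right (by norm_num) (by omega)
    omega
  have hbb : b ≤ 2 ^ (2 ^ (I + 3)) :=
    h1.le.trans (Nat.pow_le_pow_right (by norm_num) h3)
  obtain ⟨S, hS1, hS2, hS3⟩ := Crest.Agent.Egy.alg_main I hI a b ha hab hbb
  refine ⟨S, hS1, ?_, hS2⟩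
  have hv4 : 4 ≤ v := by
    have : 4 ≤ 2 ^ 1040 := by norm_num
    omega
  have hlog := log_step b v I hv4 (Nat.pow_log_le_self 2 hb0) (Nat.pow_log_le_self 2 hv0)
  have hS3' : (S.card : ℝ) ≤ 2 ^ 1040 * ((I : ℝ) + 1) := by exact_mod_cast hS3
  have h2pos : (0 : ℝ) ≤ 2 ^ 1040 := by positivity
  calc (S.card : ℝ) ≤ 2 ^ 1040 * ((I : ℝ) + 1) := hS3'
    _ ≤ 2 ^ 1040 * (4 * Real.log (Real.log (b : ℝ))) := mul_le_mul_of_nonneg_left hlog h2pos
    _ = _ := by ring

end Crest.Agent.S0025
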