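-- S0047: the certificate is checked in the files Crest.Agent.Lib.SnakyData.Chk*; see departures.
import Crest.Statements.S0047
import Crest.Agent.Lib.SnakyCert
import Crest.Agent.Lib.SnakyFast
import Crest.Agent.Lib.SnakyData.Chk0
import Crest.Agent.Lib.SnakyData.Chk1
import Crest.Agent.Lib.SnakyData.Chk2
import Crest.Agent.Lib.SnakyData.Chk3
import Crest.Agent.Lib.SnakyData.Chk4
import Crest.Agent.Lib.SnakyData.Chk5
import Crest.Agent.Lib.SnakyData.Chk6
import Crest.Agent.Lib.SnakyData.Chk7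

set_option autoImplicit false
open Crest Crest.CombinatoricsR

namespace Crest.Agent.S0047

open Crest.Agent.Lib.SnakyFast Crest.Agent.Lib.SnakyData

theorem a15_0 : rangeE T R (nat_lit 741332) 15 (nat_lit 0) = nat_lit 0 :=
  rangeE_combine T R (nat_lit 741332) 14 (nat_lit 0) c0 c1

theorem a15_1 : rangeE T R (nat_lit 741332) 15 (nat_lit 32768) = nat_lit 0 :=
  rangeE_combine T R (nat_lit 741332) 14 (nat_lit 32768) c2 c3

theorem a15_2 : rangeE T R (nat_lit 741332) 15 (nat_lit 65536) = nat_lit 0 :=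
  rangeE_combine T R (nat_lit 741332) 14 (nat_lit 65536) c4 c5

theorem a15_3 : rangeE T R (nat_lit 741332) 15 (nat_lit 98304) = nat_lit 0 :=
  rangeE_combine T R (nat_lit 741332) 14 (nat_lit 98304) c6 c7

theorem a15_4 : rangeE T R (nat_lit 741332) 15 (nat_lit 131072) = nat_lit 0 :=
  rangeE_combine T R (nat_lit 741332) 14 (nat_lit 131072) c8 c9

theorem a15_5 : rangeE T R (nat_lit 741332) 15 (nat_lit 163840) = nat_lit 0 :=
  rangeE_combine T R (nat_lit 741332) 14 (nat_lit 163840) c10 c11

theorem a15_6 : rangeE T R (nat_lit 741332) 15 (nat_lit 196608) = nat_lit 0 :=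
  rangeE_combine T R (nat_lit 741332) 14 (nat_lit 196608) c12 c13

theorem a15_7 : rangeE T R (nat_lit 741332) 15 (nat_lit 229376) = nat_lit 0 :=
  rangeE_combine T R (nat_lit 741332) 14 (nat_lit 229376) c14 c15

theorem a15_8 : rangeE T R (nat_lit 741332) 15 (nat_lit 262144) = nat_lit 0 :=
  rangeE_combine T R (nat_lit 741332) 14 (nat_lit 262144) c16 c17

theorem a15_9 : rangeE T R (nat_lit 741332) 15 (nat_lit 294912) = nat_lit 0 :=
  rangeE_combine T R (nat_lit 741332) 14 (nat_lit 294912) c18 c19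

theorem a15_10 : rangeE T R (nat_lit 741332) 15 (nat_lit 327680) = nat_lit 0 :=
  rangeE_combine T R (nat_lit 741332) 14 (nat_lit 327680) c20 c21

theorem a15_11 : rangeE T R (nat_lit 741332) 15 (nat_lit 360448) = nat_lit 0 :=
  rangeE_combine T R (nat_lit 741332) 14 (nat_lit 360448) c22 c23

theorem a15_12 : rangeE T R (nat_lit 741332) 15 (nat_lit 393216) = nat_lit 0 :=
  rangeE_combine T R (nat_lit 741332) 14 (nat_lit 393216) c24 c25

theorem a15_13 : rangeE T R (nat_lit 741332) 15 (nat_lit 425984) = nat_lit 0 :=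
  rangeE_combine T R (nat_lit 741332) 14 (nat_lit 425984) c26 c27

theorem a15_14 : rangeE T R (nat_lit 741332) 15 (nat_lit 458752) = nat_lit 0 :=
  rangeE_combine T R (nat_lit 741332) 14 (nat_lit 458752) c28 c29

theorem a15_15 : rangeE T R (nat_lit 741332) 15 (nat_lit 491520) = nat_lit 0 :=
  rangeE_combine T R (nat_lit 741332) 14 (nat_lit 491520) c30 c31

theorem a15_16 : rangeE T R (nat_lit 741332) 15 (nat_lit 524288) = nat_lit 0 :=
  rangeE_combine T R (nat_lit 741332) 14 (nat_lit 524288) c32 c33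

theorem a15_17 : rangeE T R (nat_lit 741332) 15 (nat_lit 557056) = nat_lit 0 :=
  rangeE_combine T R (nat_lit 741332) 14 (nat_lit 557056) c34 c35

theorem a15_18 : rangeE T R (nat_lit 741332) 15 (nat_lit 589824) = nat_lit 0 :=
  rangeE_combine T R (nat_lit 741332) 14 (nat_lit 589824) c36 c37

theorem a15_19 : rangeE T R (nat_lit 741332) 15 (nat_lit 622592) = nat_lit 0 :=
  rangeE_combine T R (nat_lit 741332) 14 (nat_lit 622592) c38 c39

theorem a15_20 : rangeE T R (nat_lit 741332) 15 (nat_lit 655360) = nat_lit 0 :=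
  rangeE_combine T R (nat_lit 741332) 14 (nat_lit 655360) c40 c41

theorem a15_21 : rangeE T R (nat_lit 741332) 15 (nat_lit 688128) = nat_lit 0 :=
  rangeE_combine T R (nat_lit 741332) 14 (nat_lit 688128) c42 c43

theorem a15_22 : rangeE T R (nat_lit 741332) 15 (nat_lit 720896) = nat_lit 0 :=
  rangeE_combine T R (nat_lit 741332) 14 (nat_lit 720896) c44 c45

theorem a15_23 : rangeE T R (nat_lit 741332) 15 (nat_lit 753664) = nat_lit 0 :=
  rangeE_combine T R (nat_lit 741332) 14 (nat_lit 753664) c46 c47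

theorem a15_24 : rangeE T R (nat_lit 741332) 15 (nat_lit 786432) = nat_lit 0 :=
  rangeE_combine T R (nat_lit 741332) 14 (nat_lit 786432) c48 c49

theorem a15_25 : rangeE T R (nat_lit 741332) 15 (nat_lit 819200) = nat_lit 0 :=
  rangeE_combine T R (nat_lit 741332) 14 (nat_lit 819200) c50 c51

theorem a15_26 : rangeE T R (nat_lit 741332) 15 (nat_lit 851968) = nat_lit 0 :=
  rangeE_combine T R (nat_lit 741332) 14 (nat_lit 851968) c52 c53

theorem a15_27 : rangeE T R (nat_lit 741332) 15 (nat_lit 884736) = nat_lit 0 :=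
  rangeE_combine T R (nat_lit 741332) 14 (nat_lit 884736) c54 c55

theorem a15_28 : rangeE T R (nat_lit 741332) 15 (nat_lit 917504) = nat_lit 0 :=
  rangeE_combine T R (nat_lit 741332) 14 (nat_lit 917504) c56 c57

theorem a15_29 : rangeE T R (nat_lit 741332) 15 (nat_lit 950272) = nat_lit 0 :=
  rangeE_combine T R (nat_lit 741332) 14 (nat_lit 950272) c58 c59

theorem a15_30 : rangeE T R (nat_lit 741332) 15 (nat_lit 983040) = nat_lit 0 :=
  rangeE_combine T R (nat_lit 741332) 14 (nat_lit 983040) c60 c61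

theorem a15_31 : rangeE T R (nat_lit 741332) 15 (nat_lit 1015808) = nat_lit 0 :=
  rangeE_combine T R (nat_lit 741332) 14 (nat_lit 1015808) c62 c63

theorem a16_0 : rangeE T R (nat_lit 741332) 16 (nat_lit 0) = nat_lit 0 :=
  rangeE_combine T R (nat_lit 741332) 15 (nat_lit 0) a15_0 a15_1

theorem a16_1 : rangeE T R (nat_lit 741332) 16 (nat_lit 65536) = nat_lit 0 :=
  rangeE_combine T R (nat_lit 741332) 15 (nat_lit 65536) a15_2 a15_3

theorem a16_2 : rangeE T R (nat_lit 741332) 16 (nat_lit 131072) = nat_lit 0 :=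
  rangeE_combine T R (nat_lit 741332) 15 (nat_lit 131072) a15_4 a15_5

theorem a16_3 : rangeE T R (nat_lit 741332) 16 (nat_lit 196608) = nat_lit 0 :=
  rangeE_combine T R (nat_lit 741332) 15 (nat_lit 196608) a15_6 a15_7

theorem a16_4 : rangeE T R (nat_lit 741332) 16 (nat_lit 262144) = nat_lit 0 :=
  rangeE_combine T R (nat_lit 741332) 15 (nat_lit 262144) a15_8 a15_9

theorem a16_5 : rangeE T R (nat_lit 741332) 16 (nat_lit 327680) = nat_lit 0 :=
  rangeE_combine T R (nat_lit 741332) 15 (nat_lit 327680) a15_10 a15_11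

theorem a16_6 : rangeE T R (nat_lit 741332) 16 (nat_lit 393216) = nat_lit 0 :=
  rangeE_combine T R (nat_lit 741332) 15 (nat_lit 393216) a15_12 a15_13

theorem a16_7 : rangeE T R (nat_lit 741332) 16 (nat_lit 458752) = nat_lit 0 :=
  rangeE_combine T R (nat_lit 741332) 15 (nat_lit 458752) a15_14 a15_15

theorem a16_8 : rangeE T R (nat_lit 741332) 16 (nat_lit 524288) = nat_lit 0 :=
  rangeE_combine T R (nat_lit 741332) 15 (nat_lit 524288) a15_16 a15_17

theorem a16_9 : rangeE T R (nat_lit 741332) 16 (nat_lit 589824) = nat_lit 0 :=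
  rangeE_combine T R (nat_lit 741332) 15 (nat_lit 589824) a15_18 a15_19

theorem a16_10 : rangeE T R (nat_lit 741332) 16 (nat_lit 655360) = nat_lit 0 :=
  rangeE_combine T R (nat_lit 741332) 15 (nat_lit 655360) a15_20 a15_21

theorem a16_11 : rangeE T R (nat_lit 741332) 16 (nat_lit 720896) = nat_lit 0 :=
  rangeE_combine T R (nat_lit 741332) 15 (nat_lit 720896) a15_22 a15_23

theorem a16_12 : rangeE T R (nat_lit 741332) 16 (nat_lit 786432) = nat_lit 0 :=
  rangeE_combine T R (nat_lit 741332) 15 (nat_lit 786432) a15_24 a15_25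

theorem a16_13 : rangeE T R (nat_lit 741332) 16 (nat_lit 851968) = nat_lit 0 :=
  rangeE_combine T R (nat_lit 741332) 15 (nat_lit 851968) a15_26 a15_27

theorem a16_14 : rangeE T R (nat_lit 741332) 16 (nat_lit 917504) = nat_lit 0 :=
  rangeE_combine T R (nat_lit 741332) 15 (nat_lit 917504) a15_28 a15_29

theorem a16_15 : rangeE T R (nat_lit 741332) 16 (nat_lit 983040) = nat_lit 0 :=
  rangeE_combine T R (nat_lit 741332) 15 (nat_lit 983040) a15_30 a15_31

theorem a17_0 : rangeE T R (nat_lit 741332) 17 (nat_lit 0) = nat_lit 0 :=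
  rangeE_combine T R (nat_lit 741332) 16 (nat_lit 0) a16_0 a16_1

theorem a17_1 : rangeE T R (nat_lit 741332) 17 (nat_lit 131072) = nat_lit 0 :=
  rangeE_combine T R (nat_lit 741332) 16 (nat_lit 131072) a16_2 a16_3

theorem a17_2 : rangeE T R (nat_lit 741332) 17 (nat_lit 262144) = nat_lit 0 :=
  rangeE_combine T R (nat_lit 741332) 16 (nat_lit 262144) a16_4 a16_5

theorem a17_3 : rangeE T R (nat_lit 741332) 17 (nat_lit 393216) = nat_lit 0 :=
  rangeE_combine T R (nat_lit 741332) 16 (nat_lit 393216) a16_6 a16_7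

theorem a17_4 : rangeE T R (nat_lit 741332) 17 (nat_lit 524288) = nat_lit 0 :=
  rangeE_combine T R (nat_lit 741332) 16 (nat_lit 524288) a16_8 a16_9

theorem a17_5 : rangeE T R (nat_lit 741332) 17 (nat_lit 655360) = nat_lit 0 :=
  rangeE_combine T R (nat_lit 741332) 16 (nat_lit 655360) a16_10 a16_11

theorem a17_6 : rangeE T R (nat_lit 741332) 17 (nat_lit 786432) = nat_lit 0 :=
  rangeE_combine T R (nat_lit 741332) 16 (nat_lit 786432) a16_12 a16_13

theorem a17_7 : rangeE T R (nat_lit 741332) 17 (nat_lit 917504) = nat_lit 0 :=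
  rangeE_combine T R (nat_lit 741332) 16 (nat_lit 917504) a16_14 a16_15

theorem a18_0 : rangeE T R (nat_lit 741332) 18 (nat_lit 0) = nat_lit 0 :=
  rangeE_combine T R (nat_lit 741332) 17 (nat_lit 0) a17_0 a17_1

theorem a18_1 : rangeE T R (nat_lit 741332) 18 (nat_lit 262144) = nat_lit 0 :=
  rangeE_combine T R (nat_lit 741332) 17 (nat_lit 262144) a17_2 a17_3

theorem a18_2 : rangeE T R (nat_lit 741332) 18 (nat_lit 524288) = nat_lit 0 :=
  rangeE_combine T R (nat_lit 741332) 17 (nat_lit 524288) a17_4 a17_5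

theorem a18_3 : rangeE T R (nat_lit 741332) 18 (nat_lit 786432) = nat_lit 0 :=
  rangeE_combine T R (nat_lit 741332) 17 (nat_lit 786432) a17_6 a17_7

theorem a19_0 : rangeE T R (nat_lit 741332) 19 (nat_lit 0) = nat_lit 0 :=
  rangeE_combine T R (nat_lit 741332) 18 (nat_lit 0) a18_0 a18_1

theorem a19_1 : rangeE T R (nat_lit 741332) 19 (nat_lit 524288) = nat_lit 0 :=
  rangeE_combine T R (nat_lit 741332) 18 (nat_lit 524288) a18_2 a18_3

theorem a20_0 : rangeE T R (nat_lit 741332) 20 (nat_lit 0) = nat_lit 0 :=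
  rangeE_combine T R (nat_lit 741332) 19 (nat_lit 0) a19_0 a19_1

theorem hroot_lt : (741331 : Nat) < 741332 := by decide

theorem hM : (mkNode T R (nat_lit 741331)).M = 0 := by decide +kernel

theorem hd : (mkNode T R (nat_lit 741331)).d = 0 := by decide +kernel

/-- In the Maker–Breaker game on the board ℤ × ℤ (Maker first; the players alternately claim one unclaimed cell), Maker has a policy — a rule giving its next cell from Breaker's replies so far — such that against every sequence of Breaker replies whose first 20 are legal (each a cell not claimed before), Maker's first 21 claims are legal and contain a copy of the six-cell polyomino Snaky {(0,0),(1,0),(2,0),(3,0),(3,1),(4,1)} under a translation composed with a signed coordinate permutation. -/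
theorem result :
    ∃ σ : List (ℤ × ℤ) → ℤ × ℤ, ∀ b : ℕ → ℤ × ℤ,
      (∀ k : ℕ, k < 20 →
        (∀ j : ℕ, j ≤ k → b k ≠ Crest.CombinatoricsR.PolyominoGame.makerClaim σ b j) ∧
        (∀ j : ℕ, j < k → b k ≠ b j)) →
      (∀ k : ℕ, k ≤ 20 →
        (∀ j : ℕ, j < k → Crest.CombinatoricsR.PolyominoGame.makerClaim σ b k ≠
          Crest.CombinatoricsR.PolyominoGame.makerClaim σ b j) ∧
        (∀ j : ℕ, j < k → Crest.CombinatoricsR.PolyominoGame.makerClaim σ b k ≠ b j)) ∧
      Crest.CombinatoricsR.PolyominoGame.ContainsCopy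
        {c | ∃ j : ℕ, j ≤ 20 ∧ c = Crest.CombinatoricsR.PolyominoGame.makerClaim σ b j} := by
  refine Crest.Agent.Lib.SnakyCert.sound 15 (by decide) (mkNode T R) 741332 741331 ?_ hroot_lt hM hd
  intro i hi
  have h := rangeE_spec T R 741332 20 0 a20_0 i (by
    have : i < 2 ^ 20 := lt_of_lt_of_le hi (by decide)
    exact this) (by rw [Nat.zero_add]; exact hi)
  rwa [Nat.zero_add] at h

end Crest.Agent.S0047
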